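import Mathlib.RingTheory.Jacobson.Ring
import Mathlib.GroupTheory.ResiduallyFinite
import Vale.Agent.P293.Spread
import Mathlib.LinearAlgebra.Matrix.SpecialLinearGroup

/-!
# Finitely generated linear groups are residually finite

The entries lie in a ring of finite type over the integers. The product of a nonzero element by its
inverse makes it a unit there, and a maximal ideal has a finite residue field.
-/

namespace Vale.Agent.P165.EX.Stab

open Matrix
open scoped MatrixGroups

variable {K : Type} [Field K] {n : ℕ} {Γ : Type} [Group Γ]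

/-- A finitely generated subring in which a given nonzero element stays nonzero in some finite
field. -/
theorem exists_finite_field (S : Finset K) {a : K} (ha0 : a ≠ 0) :
    ∃ R : Subalgebra ℤ K, (↑S : Set K) ⊆ R ∧ ∃ (F : Type) (_ : Field F) (_ : Finite F)
      (f : R →+* F), ∀ h : a ∈ R, f ⟨a, h⟩ ≠ 0 := by
  classical
  have hJ : IsJacobsonRing ℤ := Vale.Agent.P293.int_isJacobsonRing
  set R : Subalgebra ℤ K := Algebra.adjoin ℤ (↑(insert a⁻¹ S) : Set K)
  have hR : Algebra.FiniteType ℤ R := (Subalgebra.fg_iff_finiteType R).1 ⟨_, rfl⟩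
  obtain ⟨M, hM⟩ := Ideal.exists_maximal R
  let _ : Field (R ⧸ M) := Ideal.Quotient.field M
  have hF : Algebra.FiniteType ℤ (R ⧸ M) :=
    hR.of_surjective (Ideal.Quotient.mkₐ ℤ M) Ideal.Quotient.mk_surjective
  have hfin : Module.Finite ℤ (R ⧸ M) := finite_of_finite_type_of_isJacobsonRing ℤ (R ⧸ M)
  have hint : Algebra.IsIntegral ℤ (R ⧸ M) := Algebra.IsIntegral.of_finite _ _
  have htor : ∀ x : R ⧸ M, IsOfFinAddOrder x := by
    obtain ⟨p, hp⟩ := CharP.exists (R ⧸ M)
    have hp0 : p ≠ 0 := by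
      rintro rfl
      have : CharZero (R ⧸ M) := CharP.charP_to_charZero _
      exact Int.not_isField (isField_of_isIntegral_of_isField (R := ℤ) (S := R ⧸ M)
        (by intro x y h; simpa using h) (Field.toIsField _))
    intro x
    refine isOfFinAddOrder_iff_nsmul_eq_zero.2 ⟨p, Nat.pos_of_ne_zero hp0, ?_⟩
    rw [nsmul_eq_mul, CharP.cast_eq_zero, zero_mul]
  have : AddGroup.FG (R ⧸ M) := AddGroup.fg_iff_addMonoid_fg.2
    (AddGroup.fg_iff_addMonoid_fg.1 (Module.Finite.iff_addGroup_fg.1 hfin))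
  have : Finite (R ⧸ M) := AddCommGroup.finite_of_fg_isAddTorsion _ htor
  have hS : ∀ x ∈ insert a⁻¹ S, x ∈ R := fun x hx =>
    Algebra.subset_adjoin (Finset.mem_coe.2 hx)
  refine ⟨R, fun x hx => hS x (Finset.mem_insert_of_mem hx), R ⧸ M, inferInstance, inferInstance,
    Ideal.Quotient.mk M, fun h h0 => ?_⟩
  have e : (⟨a, h⟩ : R) * ⟨a⁻¹, hS _ (Finset.mem_insert_self _ _)⟩ = 1 :=
    Subtype.ext (mul_inv_cancel₀ ha0)
  have := congrArg (Ideal.Quotient.mk M) e
  rw [map_mul, h0, zero_mul, map_one] at this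
  exact zero_ne_one this

/-- An element with nontrivial image is avoided by a subgroup of finite index. -/
theorem exists_finiteIndex_notMem [Group.FG Γ] (rep : Γ →* Matrix (Fin n) (Fin n) K) {g : Γ}
    (hg : rep g ≠ 1) : ∃ H : Subgroup Γ, H.FiniteIndex ∧ g ∉ H := by
  classical
  obtain ⟨S, hS, hSf⟩ := Group.fg_iff.1 ‹Group.FG Γ›
  obtain ⟨i, j, hij⟩ : ∃ i j, rep g i j - (1 : Matrix (Fin n) (Fin n) K) i j ≠ 0 := by
    by_contra h
    push Not at h
    exact hg (Matrix.ext fun i j => sub_eq_zero.1 (h i j))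
  set a := rep g i j - (1 : Matrix (Fin n) (Fin n) K) i j with ha'
  set U : Finset (Γ × Fin n × Fin n) :=
    (hSf.toFinset ∪ hSf.toFinset.image fun x => x⁻¹) ×ˢ (Finset.univ : Finset (Fin n × Fin n))
  set E : Finset K := insert a (U.image fun q => rep q.1 q.2.1 q.2.2)
  obtain ⟨R, hER, F, _, _, f, hf⟩ := exists_finite_field E (a := a) hij
  have hgen : ∀ x ∈ S, ∀ u v, rep x u v ∈ R ∧ rep x⁻¹ u v ∈ R := fun x hx u v => by
    constructor <;> refine hER (Finset.mem_insert_of_mem (Finset.mem_image.2 ?_))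
    · exact ⟨(x, u, v), Finset.mem_product.2
        ⟨Finset.mem_union_left _ (hSf.mem_toFinset.2 hx), Finset.mem_univ _⟩, rfl⟩
    · exact ⟨(x⁻¹, u, v), Finset.mem_product.2 ⟨Finset.mem_union_right _
        (Finset.mem_image_of_mem _ (hSf.mem_toFinset.2 hx)), Finset.mem_univ _⟩, rfl⟩
  let good : Subgroup Γ :=
    { carrier := {x | ∀ u v, rep x u v ∈ R ∧ rep x⁻¹ u v ∈ R}
      one_mem' := fun u v => by
        by_cases h : u = v <;> simp [h, one_mem, zero_mem]
      mul_mem' := fun {x y} hx hy u v => by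
        rw [_root_.mul_inv_rev, map_mul, map_mul, Matrix.mul_apply, Matrix.mul_apply]
        exact ⟨sum_mem fun w _ => mul_mem (hx u w).1 (hy w v).1,
          sum_mem fun w _ => mul_mem (hy u w).2 (hx w v).2⟩
      inv_mem' := fun {x} hx u v => by rw [inv_inv]; exact (hx u v).symm }
  have hentry : ∀ x u v, rep x u v ∈ R := fun x u v => by
    have h : good = ⊤ := top_le_iff.1 (hS ▸ (Subgroup.closure_le good).2 hgen)
    exact ((h ▸ Subgroup.mem_top x : x ∈ good) u v).1
  set σ : R →+* K := R.val.toRingHom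
  let M : Γ → Matrix (Fin n) (Fin n) R := fun x => Matrix.of fun u v => ⟨_, hentry x u v⟩
  have inj : Function.Injective fun A : Matrix (Fin n) (Fin n) R => A.map σ :=
    fun A B e => Matrix.ext fun u v => Subtype.ext (congrFun (congrFun e u) v)
  have hM : ∀ x, (M x).map σ = rep x := fun x => rfl
  let M' : Γ →* Matrix (Fin n) (Fin n) R :=
    { toFun := M
      map_one' := inj (by
        show (M 1).map σ = (1 : Matrix (Fin n) (Fin n) R).map σ
        rw [hM, map_one, Matrix.map_one σ (map_zero σ) (map_one σ)])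
      map_mul' := fun x y => inj (by
        show (M (x * y)).map σ = (M x * M y).map σ
        rw [Matrix.map_mul, hM, hM, hM, map_mul]) }
  let φ : Γ →* Matrix (Fin n) (Fin n) F := (f.mapMatrix.toMonoidHom).comp M'
  refine ⟨φ.toHomUnits.ker, Subgroup.finiteIndex_ker φ.toHomUnits, fun hmem => ?_⟩
  have ha : a ∈ R := hER (Finset.mem_insert_self _ _)
  refine hf ha ?_
  have h1 : φ g = 1 := congrArg Units.val (MonoidHom.mem_ker.1 hmem)
  have e : f (M g i j) = (1 : Matrix (Fin n) (Fin n) F) i j := congrFun (congrFun h1 i) j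
  have ea : (⟨a, ha⟩ : R) = M g i j - (1 : Matrix (Fin n) (Fin n) R) i j := by
    refine Subtype.ext ?_
    change a = rep g i j - (((1 : Matrix (Fin n) (Fin n) R) i j : R) : K)
    rw [ha']
    by_cases h : i = j <;> simp [Matrix.one_apply, h]
  rw [ea, map_sub, e]
  by_cases h : i = j <;> simp [Matrix.one_apply, h]

/-- A jointly faithful family of special linear representations separates a finitely generated
group from each of its elements by subgroups of finite index. -/
theorem exists_finiteIndex_of_injective {P : Type} {k : P → Type} [∀ v, Field (k v)] {d : P → ℕ}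
    (ρ : ∀ v, Γ →* SL(d v, k v)) (hinj : ∀ g, (∀ v, ρ v g = 1) → g = 1) [Group.FG Γ] {g : Γ}
    (hg : g ≠ 1) : ∃ H : Subgroup Γ, H.FiniteIndex ∧ g ∉ H := by
  obtain ⟨v, hv⟩ : ∃ v, ρ v g ≠ 1 := by
    by_contra h
    push Not at h
    exact hg (hinj g h)
  let rep : Γ →* Matrix (Fin (d v)) (Fin (d v)) (k v) :=
    { toFun := fun x => (ρ v x : Matrix (Fin (d v)) (Fin (d v)) (k v))
      map_one' := by simp
      map_mul' := fun x y => by simp }
  exact exists_finiteIndex_notMem rep fun e => hv (Subtype.ext e)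

end Vale.Agent.P165.EX.Stab
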