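import Vale.Agent.P165.Pad.Main
import Vale.Agent.P165.EX.Proper
import Mathlib.GroupTheory.ResiduallyFinite

/-!
# Actions with finite stabilisers of residually finite groups

A group with such an action with finitely many orbits is finitely generated. Its nontrivial elements
fixing a vertex of the finite set of representatives are finitely many, so a normal subgroup of
finite index avoids them and acts freely.
-/

namespace Vale.Agent.P165.EX.Stab

open Finset

variable {Γ : Type} [Group Γ]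

/-- An action with finite stabilisers and finitely many orbits on a connected locally finite graph
forces finite generation. -/
theorem fg_of_proper_cofinite {V : Type} {G : SimpleGraph V} (hG : G.Connected)
    (hf : ∀ v, (G.neighborSet v).Finite) (Φ : Γ →* (G ≃g G))
    (hstab : ∀ v, {g | Φ g v = v}.Finite) (R : Finset V) (cover : ∀ v, ∃ g, Φ g v ∈ R) :
    Group.FG Γ := by
  have key : ∀ g h v, Φ (g * h) v = Φ g (Φ h v) := fun g h v => by rw [map_mul]; rfl
  have hfib : ∀ r u, {g | Φ g r = u}.Finite := fun r u => by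
    rcases Set.eq_empty_or_nonempty {g | Φ g r = u} with h | ⟨a, ha⟩
    · exact h ▸ Set.finite_empty
    · refine ((hstab r).image (a * ·)).subset fun b hb => ⟨a⁻¹ * b, ?_, by simp⟩
      show Φ (a⁻¹ * b) r = r
      rw [key, show Φ b r = u from hb, ← show Φ a r = u from ha, ← key, inv_mul_cancel, map_one]
      rfl
  set N : Set V := (R : Set V) ∪ ⋃ r ∈ R, G.neighborSet r with hN
  have hNf : N.Finite := R.finite_toSet.union (R.finite_toSet.biUnion fun r _ => hf r)
  set S : Set Γ := ⋃ r ∈ R, ⋃ u ∈ N, {g | Φ g r = u} with hS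
  have hSf : S.Finite := R.finite_toSet.biUnion fun r _ => hNf.biUnion fun u _ => hfib r u
  have hmemS : ∀ g r, r ∈ R → Φ g r ∈ N → g ∈ S := fun g r hr h =>
    Set.mem_biUnion hr (Set.mem_biUnion h rfl)
  set H := Subgroup.closure S with hH
  have hW : ∀ v w, G.Adj v w → (∃ h ∈ H, Φ h v ∈ R) → ∃ h ∈ H, Φ h w ∈ R := by
    rintro v w hvw ⟨h, hh, hv⟩
    obtain ⟨k, hk⟩ := cover w
    refine ⟨k, ?_, hk⟩
    have hkv : Φ (k * h⁻¹) (Φ h v) = Φ k v := by rw [← key, inv_mul_cancel_right]
    have h1 : k * h⁻¹ ∈ H := Subgroup.subset_closure (hmemS _ _ hv (by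
      rw [hkv]
      exact Or.inr (Set.mem_biUnion hk ((Φ k).map_rel_iff.2 hvw.symm))))
    simpa using H.mul_mem h1 hh
  obtain ⟨v₀⟩ := hG.nonempty
  obtain ⟨g₀, hg₀⟩ := cover v₀
  have hall : ∀ v, ∃ h ∈ H, Φ h v ∈ R := fun v => by
    obtain ⟨p⟩ := hG.preconnected (Φ g₀ v₀) v
    have base : ∃ h ∈ H, Φ h (Φ g₀ v₀) ∈ R := ⟨1, H.one_mem, by rw [map_one]; exact hg₀⟩
    clear_value H
    generalize Φ g₀ v₀ = u at p base
    induction p with
    | nil => exact base
    | cons h _ ih => exact ih (hW _ _ h base)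
  refine Group.fg_iff.2 ⟨S, (Subgroup.eq_top_iff' _).2 fun g => ?_, hSf⟩
  obtain ⟨h, hh, hr⟩ := hall (Φ g⁻¹ (Φ g₀ v₀))
  rw [← key] at hr
  have h1 : h * g⁻¹ ∈ H := Subgroup.subset_closure (hmemS _ _ hg₀ (Or.inl hr))
  simpa using H.mul_mem (H.inv_mem h1) hh

/-- A phase for the free actions of all subgroups of finite index gives one for all actions with
finite stabilisers when the group, if finitely generated, is residually finite. -/
theorem phaseProper_of_residual
    (hres : Group.FG Γ → ∀ g : Γ, g ≠ 1 → ∃ H : Subgroup Γ, H.FiniteIndex ∧ g ∉ H)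
    (h : ∀ H : Subgroup Γ, H.FiniteIndex → PhaseQT H) : PhaseProper Γ := by
  classical
  intro V G hc hf Φ hstab R cover
  choose K hK hgK using hres (fg_of_proper_cofinite hc hf Φ hstab R cover)
  have hT : {g : Γ | g ≠ 1 ∧ ∃ r ∈ R, Φ g r = r}.Finite :=
    (R.finite_toSet.biUnion fun r _ => hstab r).subset fun g ⟨_, r, hr, hg⟩ =>
      Set.mem_biUnion hr hg
  have hL : (⨅ t : hT.toFinset, K t.1 (hT.mem_toFinset.1 t.2).1).FiniteIndex :=
    Subgroup.finiteIndex_iInf fun t => hK _ _
  set L := (⨅ t : hT.toFinset, K t.1 (hT.mem_toFinset.1 t.2).1) with hLdef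
  set H := L.normalCore
  have : H.FiniteIndex := Subgroup.finiteIndex_normalCore L
  have : Fintype (Γ ⧸ H) := Subgroup.fintypeQuotientOfFiniteIndex
  refine h H inferInstance V G hc hf (Φ.comp H.subtype) (fun x v hv => ?_)
    ((univ ×ˢ R).image fun q : (Γ ⧸ H) × V => Φ q.1.out⁻¹ q.2) fun v => ?_
  · obtain ⟨g, hg⟩ := cover v
    have hfix : Φ (g * x * g⁻¹) (Φ g v) = Φ g v := by
      rw [← RelIso.mul_apply, ← map_mul, inv_mul_cancel_right, map_mul, RelIso.mul_apply]
      exact congrArg (Φ g) hv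
    by_contra hne
    have hne' : g * (x : Γ) * g⁻¹ ≠ 1 := fun e => hne (Subtype.ext (conj_eq_one_iff.1 e))
    have hmem : g * (x : Γ) * g⁻¹ ∈ L :=
      L.normalCore_le ((Subgroup.normalCore_normal L).conj_mem _ x.2 g)
    rw [hLdef, Subgroup.mem_iInf] at hmem
    exact hgK _ hne' (hmem ⟨_, hT.mem_toFinset.2 ⟨hne', _, hg, hfix⟩⟩)
  · obtain ⟨g, hg⟩ := cover v
    refine ⟨⟨(QuotientGroup.mk g : Γ ⧸ H).out⁻¹ * g, QuotientGroup.eq.1 (Quotient.out_eq _)⟩,
      mem_image.2 ⟨(QuotientGroup.mk g, Φ g v), mem_product.2 ⟨mem_univ _, hg⟩, ?_⟩⟩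
    simp [map_mul, RelIso.mul_apply]

end Vale.Agent.P165.EX.Stab
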