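import Vale.Agent.P165.EX.Any.Dense
import Vale.Agent.P165.EX.Join.Classes
import Vale.Agent.P165.EX.Red.Prime

/-!
# Transversality, density and semisimplicity pass to subgroups of finite index

One element must be good for the translates of the data by finitely many representatives. For a
prime vanishing ideal a subgroup of finite index has the same vanishing ideal.
-/

namespace Vale.Agent.P165.EX.Stab

open Matrix Finset
open scoped MatrixGroups

section Field

variable {k : Type} [Field k] {n : ℕ} {Γ : Type} [Group Γ] (ρ : Γ →* SL(n, k)) (H : Subgroup Γ)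
  [H.FiniteIndex]

/-- With a prime vanishing ideal, what vanishes on a subgroup of finite index vanishes on all. -/
theorem vanish_of_prime
    (hp : ∀ f₁ f₂ : MvPolynomial (Fin n × Fin n) k,
      (∀ g, MvPolynomial.eval (Red.pt ρ g) f₁ = 0 ∨ MvPolynomial.eval (Red.pt ρ g) f₂ = 0) →
      (∀ g, MvPolynomial.eval (Red.pt ρ g) f₁ = 0) ∨ ∀ g, MvPolynomial.eval (Red.pt ρ g) f₂ = 0)
    (f : MvPolynomial (Fin n × Fin n) k) (hf : ∀ h : H, MvPolynomial.eval (Red.pt ρ h) f = 0)
    (g : Γ) : MvPolynomial.eval (Red.pt ρ g) f = 0 := by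
  classical
  have : Fintype (Γ ⧸ H) := Subgroup.fintypeQuotientOfFiniteIndex
  set F : (Γ ⧸ H) → MvPolynomial (Fin n × Fin n) k := fun c => Red.leftT ρ c.out⁻¹ f
  have key : ∀ s : Finset (Γ ⧸ H), (∀ g, ∃ c ∈ s, MvPolynomial.eval (Red.pt ρ g) (F c) = 0) →
      ∃ c, ∀ g, MvPolynomial.eval (Red.pt ρ g) (F c) = 0 := by
    intro s
    induction s using Finset.induction_on with
    | empty => exact fun h => absurd (h 1) (by simp)
    | insert c s _ ih =>
      intro h
      rcases hp (F c) (∏ d ∈ s, F d) (fun g => by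
        obtain ⟨d, hd, h0⟩ := h g
        rcases mem_insert.1 hd with rfl | hd
        · exact Or.inl h0
        · exact Or.inr (by rw [map_prod]; exact prod_eq_zero hd h0)) with h1 | h1
      · exact ⟨c, h1⟩
      · refine ih fun g => ?_
        have := h1 g
        rw [map_prod, prod_eq_zero_iff] at this
        exact this
  obtain ⟨c, hc⟩ := key univ fun x => ⟨QuotientGroup.mk x, mem_univ _, by
    rw [Red.eval_leftT]
    exact hf ⟨_, QuotientGroup.eq.1 (Quotient.out_eq _)⟩⟩
  have h := hc (c.out * g)
  rwa [Red.eval_leftT, inv_mul_cancel_left] at h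

/-- Density in the special linear group over an infinite field. -/
theorem dense_restrict [Infinite k] (hn : 2 ≤ n)
    (hd : ∀ f : MvPolynomial (Fin n × Fin n) k,
      (∀ g, MvPolynomial.eval (fun e => (ρ g : Matrix (Fin n) (Fin n) k) e.1 e.2) f = 0) →
        ∀ a : SL(n, k), MvPolynomial.eval (fun e => (a : Matrix (Fin n) (Fin n) k) e.1 e.2) f = 0)
    (f : MvPolynomial (Fin n × Fin n) k)
    (hf : ∀ h : H,
      MvPolynomial.eval (fun e => ((ρ.comp H.subtype) h : Matrix (Fin n) (Fin n) k) e.1 e.2) f = 0)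
    (a : SL(n, k)) : MvPolynomial.eval (fun e => (a : Matrix (Fin n) (Fin n) k) e.1 e.2) f = 0 := by
  classical
  have : Fintype (Γ ⧸ H) := Subgroup.fintypeQuotientOfFiniteIndex
  have : Nontrivial (Fin n) := Fin.nontrivial_iff_two_le.2 hn
  set F : (Γ ⧸ H) → MvPolynomial (Fin n × Fin n) k := fun c => Red.leftT ρ c.out⁻¹ f
  have hev : ∀ (c : Γ ⧸ H) (b : Matrix (Fin n) (Fin n) k),
      MvPolynomial.eval (fun e => b e.1 e.2) (F c) =
        MvPolynomial.eval (fun e => ((ρ c.out⁻¹ : Matrix (Fin n) (Fin n) k) * b) e.1 e.2) f := by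
    intro c b
    change MvPolynomial.eval _ (Red.leftT ρ _ f) = _
    rw [Red.leftT, ← MvPolynomial.aeval_eq_eval, ← AlgHom.comp_apply, MvPolynomial.comp_aeval,
      ← MvPolynomial.aeval_eq_eval]
    refine congrArg (fun F : Fin n × Fin n → k => MvPolynomial.aeval F f) (funext fun e => ?_)
    simp [Matrix.mul_apply]
  have hall : ∀ b : SL(n, k),
      MvPolynomial.eval (fun e => (b : Matrix (Fin n) (Fin n) k) e.1 e.2) (∏ c, F c) = 0 :=
    hd _ fun x => by
      rw [map_prod]
      refine prod_eq_zero (mem_univ (QuotientGroup.mk x)) ?_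
      rw [hev, ← Matrix.SpecialLinearGroup.coe_mul, ← map_mul]
      exact hf ⟨_, QuotientGroup.eq.1 (Quotient.out_eq _)⟩
  by_contra hne
  -- each factor is nonzero somewhere, so on one parametrised piece none vanishes
  have hno : ∀ c : Γ ⧸ H, ∃ b : SL(n, k),
      MvPolynomial.eval (fun e => (b : Matrix (Fin n) (Fin n) k) e.1 e.2) (F c) ≠ 0 := fun c => by
    refine ⟨ρ c.out * a, ?_⟩
    rw [hev, ← Matrix.SpecialLinearGroup.coe_mul, ← mul_assoc, ← map_mul, inv_mul_cancel, map_one,
      one_mul]
    exact hne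
  choose b hb using hno
  choose T hT using fun c => SL.exists_list_transvec_prod (g := (b c : Matrix (Fin n) (Fin n) k)) (b c).2
  let V := Σ c : Γ ⧸ H, Fin (T c).length
  set piece : (Γ ⧸ H) → Matrix (Fin n) (Fin n) (MvPolynomial V k) := fun c =>
    (List.ofFn fun q : Fin (T c).length =>
      transvection ((T c).get q).i ((T c).get q).j (MvPolynomial.X ⟨c, q⟩)).prod with hpiece
  set Gp := ((univ : Finset (Γ ⧸ H)).toList.map piece).prod
  have hdet : ∀ x : V → k, (Gp.map (MvPolynomial.eval x)).det = 1 := fun x => by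
    rw [← RingHom.mapMatrix_apply, ← RingHom.map_det]
    suffices h : Gp.det = 1 by rw [h, map_one]
    refine List.prod_induction (fun M : Matrix (Fin n) (Fin n) (MvPolynomial V k) => M.det = 1)
      (fun u v hu hv => by rw [det_mul, hu, hv, one_mul]) det_one fun M hM => ?_
    obtain ⟨c, -, rfl⟩ := List.mem_map.1 hM
    rw [hpiece]
    refine List.prod_induction (fun M : Matrix (Fin n) (Fin n) (MvPolynomial V k) => M.det = 1)
      (fun u v hu hv => by rw [det_mul, hu, hv, one_mul]) det_one fun M hM => ?_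
    obtain ⟨q, rfl⟩ := List.mem_ofFn.1 hM
    exact det_transvection_of_ne _ _ ((T c).get q).hij _
  set P : (Γ ⧸ H) → MvPolynomial V k := fun c => MvPolynomial.bind₁ (fun e => Gp e.1 e.2) (F c)
  have hPev : ∀ c x, MvPolynomial.eval x (P c) =
      MvPolynomial.eval (fun e => (Gp.map (MvPolynomial.eval x)) e.1 e.2) (F c) := fun c x => by
    rw [MvPolynomial.eval, MvPolynomial.eval₂Hom_bind₁, ← MvPolynomial.eval]
    rfl
  have hP : ∀ c, P c ≠ 0 := by
    intro c h0
    let x : V → k := fun v => if v.1 = c then ((T v.1).get v.2).c else 0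
    refine hb c ?_
    have h := hPev c x
    rw [h0, map_zero] at h
    have hpc : ∀ d, (piece d).map (MvPolynomial.eval x) =
        if d = c then (b c : Matrix (Fin n) (Fin n) k) else 1 := by
      intro d
      rw [hpiece, ← RingHom.mapMatrix_apply, map_list_prod, List.map_ofFn]
      by_cases hd' : d = c
      · subst hd'
        rw [if_pos rfl, hT d]
        conv_rhs => rw [← List.ofFn_get (T d), List.map_ofFn]
        refine congrArg List.prod (congrArg List.ofFn (funext fun q => ?_))
        ext u v
        simp [x, TransvectionStruct.toMatrix, transvection, Matrix.one_apply, Matrix.single_apply]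
        split_ifs <;> simp
      · rw [if_neg hd']
        refine List.prod_eq_one fun M hM => ?_
        obtain ⟨q, rfl⟩ := List.mem_ofFn.1 hM
        ext u v
        simp [x, transvection, Matrix.one_apply, Matrix.single_apply]
        split_ifs <;> simp [hd']
    have hG : Gp.map (MvPolynomial.eval x) = (b c : Matrix (Fin n) (Fin n) k) := by
      rw [← RingHom.mapMatrix_apply, map_list_prod, List.map_map]
      have he : ((MvPolynomial.eval x).mapMatrix ∘ piece) =
          fun d => if d = c then (b c : Matrix (Fin n) (Fin n) k) else 1 := funext hpc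
      rw [show ((MvPolynomial.eval x).mapMatrix : _ → _) ∘ piece = _ from he,
        List.prod_map_eq_pow_single c]
      · simp [List.count_eq_one_of_mem (nodup_toList _) (mem_toList.2 (mem_univ c))]
      · intro d hd' _
        simp [hd']
    rw [hG] at h
    exact h.symm
  obtain ⟨x, hx⟩ : ∃ x : V → k, MvPolynomial.eval x (∏ c, P c) ≠ 0 := by
    by_contra! h
    exact prod_ne_zero_iff.2 (fun c _ => hP c) (MvPolynomial.funext fun x => by rw [h x, map_zero])
  refine hx ?_
  rw [map_prod]
  simp only [hPev]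
  rw [← map_prod]
  exact hall ⟨_, hdet x⟩

/-- Full rank is kept by invertible matrices, over any field. -/
theorem fullRow_mul {j : ℕ} {A : Matrix (Fin j) (Fin n) k} (hA : FullRow A)
    {g g' : Matrix (Fin n) (Fin n) k} (hg : g * g' = 1) : FullRow (A * g) := by
  obtain ⟨s, hs⟩ := hA
  by_contra h
  have hsplit : ∀ (a b : Sub n j) (M : Matrix (Fin j) (Fin n) k),
      ((pad k s * M).submatrix (emb a) (emb b)).det =
        ((pad k s).submatrix (emb a) id).det * (M.submatrix id (emb b)).det := fun a b M => by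
    rw [submatrix_mul _ _ _ id _ Function.bijective_id, det_mul]
  have h0 : cmp j (pad k s * (A * g)) = 0 := by
    ext a b
    simp only [cmp, Matrix.of_apply, Matrix.zero_apply, hsplit]
    rw [not_exists_not.1 h b, mul_zero]
  have h1 : cmp j (pad k s * A) = 0 := by
    rw [show pad k s * A = pad k s * (A * g) * g' by
      simp only [Matrix.mul_assoc, hg, Matrix.mul_one], cmp_mul, h0, Matrix.zero_mul]
  refine hs ?_
  have e := congrFun (congrFun h1 s) s
  simp only [cmp, Matrix.of_apply, Matrix.zero_apply, hsplit] at e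
  rwa [show ((pad k s).submatrix (emb s) id) = 1 by
    ext u v; simp [pad, Matrix.one_apply, (emb s).injective.eq_iff], det_one, one_mul] at e

end Field

section Normed

variable {k : Type} [NontriviallyNormedField k] {n : ℕ} {Γ : Type} [Group Γ] (ρ : Γ →* SL(n, k))
  (H : Subgroup Γ) [H.FiniteIndex]

/-- The image over an extension of a product. -/
theorem map_rho_mul (L : Type) [Field L] [Algebra k L] (x y : Γ) :
    (ρ x : Matrix (Fin n) (Fin n) k).map (algebraMap k L) *
      (ρ y : Matrix (Fin n) (Fin n) k).map (algebraMap k L) =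
    (ρ (x * y) : Matrix (Fin n) (Fin n) k).map (algebraMap k L) := by
  rw [map_mul ρ, Matrix.SpecialLinearGroup.coe_mul, Matrix.map_mul]

/-- Transversality over every extension passes to subgroups of finite index. -/
theorem transExt_restrict (htr : Any.TransExt ρ) : Any.TransExt (ρ.comp H.subtype) := by
  classical
  intro L _ _ m deg A B hA hB
  have : Fintype (Γ ⧸ H) := Subgroup.fintypeQuotientOfFiniteIndex
  have one : ∀ x : Γ, (ρ x⁻¹ : Matrix (Fin n) (Fin n) k).map (algebraMap k L) *
      (ρ x : Matrix (Fin n) (Fin n) k).map (algebraMap k L) = 1 := fun x => by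
    rw [map_rho_mul, inv_mul_cancel, map_one, Matrix.SpecialLinearGroup.coe_one,
      Matrix.map_one (algebraMap k L) (map_zero _) (map_one _)]
  let Q := (Γ ⧸ H) × Fin m
  let M : Q → Matrix (Fin n) (Fin n) L := fun q =>
    (ρ q.1.out⁻¹ : Matrix (Fin n) (Fin n) k).map (algebraMap k L)
  have hM : ∀ q : Q, FullRow (A q.2 * M q) := fun q => fullRow_mul (hA q.2) (one q.1.out)
  let e := Fintype.equivFin Q
  obtain ⟨g, hg⟩ := htr L (Fintype.card Q) (fun u => deg (e.symm u).2)
    (fun u => A (e.symm u).2 * M (e.symm u)) (fun u => B (e.symm u).2)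
    (fun u => hM (e.symm u)) fun u => hB (e.symm u).2
  refine ⟨⟨(QuotientGroup.mk g : Γ ⧸ H).out⁻¹ * g, QuotientGroup.eq.1 (Quotient.out_eq _)⟩,
    fun i => ?_⟩
  have h := hg (e (QuotientGroup.mk g, i))
  rw [e.symm_apply_apply] at h
  rw [Matrix.mul_assoc (A i), map_rho_mul] at h
  exact h

/-- A semisimple image passes to subgroups of finite index. -/
theorem semisimpleImage_restrict (h : SemisimpleImage ρ) : SemisimpleImage (ρ.comp H.subtype) := by
  classical
  obtain ⟨hn, hirr, hp⟩ := h
  have hv := vanish_of_prime ρ H hp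
  -- an invariant subspace of the subgroup is invariant
  have hinv : ∀ {ι : Type} [Fintype ι] [DecidableEq ι]
      (M : Matrix ι ι (MvPolynomial (Fin n × Fin n) k)) (W : Submodule k (ι → k)),
      (∀ x : H, ∀ w ∈ W, (M.map (MvPolynomial.eval (Red.pt ρ x))) *ᵥ w ∈ W) →
        ∀ g, ∀ w ∈ W, (M.map (MvPolynomial.eval (Red.pt ρ g))) *ᵥ w ∈ W := by
    intro ι _ _ M W hW g w hw
    rw [← Submodule.Quotient.mk_eq_zero W, ← Module.forall_dual_apply_eq_zero_iff k]
    intro ℓ
    set f : MvPolynomial (Fin n × Fin n) k := ∑ a, ∑ b,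
      MvPolynomial.C (ℓ (Submodule.Quotient.mk (Pi.single a 1)) * w b) * M a b
    have hf : ∀ x, MvPolynomial.eval (Red.pt ρ x) f =
        ℓ (Submodule.Quotient.mk ((M.map (MvPolynomial.eval (Red.pt ρ x))) *ᵥ w)) := fun x => by
      conv_rhs => rw [pi_eq_sum_univ' ((M.map (MvPolynomial.eval (Red.pt ρ x))) *ᵥ w)]
      simp only [f, map_sum, map_mul, MvPolynomial.eval_C,
        map_smul, smul_eq_mul, Matrix.mulVec, dotProduct, Matrix.map_apply, Finset.sum_mul,
        ← Submodule.mkQ_apply]
      refine sum_congr rfl fun a _ => sum_congr rfl fun b _ => ?_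
      ring
    rw [← hf]
    refine hv f (fun x => ?_) g
    rw [hf, (Submodule.Quotient.mk_eq_zero W).2 (hW x w hw), map_zero]
  set X : Matrix (Fin n) (Fin n) (MvPolynomial (Fin n × Fin n) k) :=
    Matrix.of fun a b => MvPolynomial.X (a, b)
  have hX : ∀ g, X.map (MvPolynomial.eval (Red.pt ρ g)) = (ρ g : Matrix (Fin n) (Fin n) k) :=
    fun g => by ext a b; simp [X, Red.pt]
  refine ⟨hn, fun W hW => hirr W fun g w hw => ?_, fun f₁ f₂ hf => ?_⟩
  · rw [← hX g]
    exact hinv X W (fun x w hw => by rw [hX]; exact hW x w hw) g w hw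
  · have hmul : ∀ g, MvPolynomial.eval (Red.pt ρ g) f₁ = 0 ∨
        MvPolynomial.eval (Red.pt ρ g) f₂ = 0 := fun g => by
      have := hv (f₁ * f₂) (fun x => by
        rw [map_mul, mul_eq_zero]; exact hf x) g
      rwa [map_mul, mul_eq_zero] at this
    rcases hp f₁ f₂ hmul with h | h
    · exact Or.inl fun x => h x
    · exact Or.inr fun x => h x

end Normed

end Vale.Agent.P165.EX.Stab
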