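import Vale.Agent.P165.EX.Stab.Separate
import Vale.Agent.P165.EX.Stab.Malcev
import Vale.Agent.P165.EX.Stab.Inherit
import Vale.Agent.P165.EX.Any.Phase
import Vale.Agent.P165.EX.Semi.Main
import Vale.Agent.P165.EX.Fg.Main
import Vale.Agent.P165.EX.Red.Main
import Vale.Agent.P165.SL.Linear

/-!
# Faithful groups: a phase for all actions with finite stabilisers

Such a group, if finitely generated, is residually finite, and every hypothesis below passes to
subgroups of finite index. So a phase for free actions gives one for actions with finite stabilisers.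
-/

namespace Vale.Agent.P165.EX.Stab

open Matrix Finset
open scoped MatrixGroups

variable {Γ : Type} [Group Γ]

theorem infinite_of_finiteIndex [Infinite Γ] (H : Subgroup Γ) [H.FiniteIndex] : Infinite H := by
  refine not_finite_iff_infinite.1 fun h => ?_
  have : Finite (Γ ⧸ H) := Subgroup.finite_quotient_of_finiteIndex
  exact not_finite_iff_infinite.2 ‹Infinite Γ›
    (Finite.of_equiv _ (Subgroup.groupEquivQuotientProdSubgroup (s := H)).symm)

/-- Finitely many places with finite boxes, jointly faithful: classical density over any normed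
fields, or semisimple images over proper ones. -/
theorem phaseProper_of_classes {P : Type} [Fintype P] [Nonempty P] {k : P → Type}
    [∀ v, NontriviallyNormedField (k v)] {d : P → ℕ} (ρ : ∀ v, Γ →* SL(d v, k v))
    (hinj : ∀ g, (∀ v, ρ v g = 1) → g = 1) (hfin : FiniteBoxes ρ)
    (h : (∀ v, ClassicalDense (ρ v)) ∨ (∀ v, ProperSpace (k v) ∧ SemisimpleImage (ρ v))) :
    PhaseProper Γ := by
  refine phaseProper_of_residual
    (fun hfg g hg => exists_finiteIndex_of_injective ρ hinj hg) fun H hH => ?_
  refine phaseQT_of_nonuniquePhase ?_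
  have hfin' : FiniteBoxes fun v => (ρ v).comp H.subtype := fun R =>
    ((hfin R).preimage Subtype.val_injective.injOn).subset fun x hx => hx
  obtain ⟨v₀⟩ := ‹Nonempty P›
  rcases h with h | h
  · have := infinite_of_classical (h v₀)
    have := infinite_of_finiteIndex H
    refine Any.nonuniquePhase_of_places _ (fun v => Nat.zero_lt_two.trans_le (h v).1)
      (fun v => Or.inl (transExt_restrict (ρ v) H (transExt_of_classical (h v)))) ?_
    open scoped Matrix.Norms.Elementwise in
    exact fun R => (hfin' R).subset fun g hg v i j =>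
      (norm_entry_le_entrywise_sup_norm _).trans (hg v)
  · have := fun v => (h v).1
    exact Semi.nonuniquePhase_of_semisimple _ (fun v => semisimpleImage_restrict (ρ v) H (h v).2)
      hfin'

/-- A finitely generated faithful Zariski dense group over an infinite field of positive
characteristic, or of algebraic elements. -/
theorem phaseProper_fg {K : Type} [Field K] [Infinite K]
    (hK : ringChar K ≠ 0 ∨ ∀ x : K, IsAlgebraic ℤ x) {n : ℕ} (hn : 2 ≤ n) [Group.FG Γ]
    (ρ : Γ →* SL(n, K)) (hinj : Function.Injective ρ)
    (hd : ∀ f : MvPolynomial (Fin n × Fin n) K,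
      (∀ g, MvPolynomial.eval (fun e => (ρ g : Matrix (Fin n) (Fin n) K) e.1 e.2) f = 0) →
        ∀ a : SL(n, K),
          MvPolynomial.eval (fun e => (a : Matrix (Fin n) (Fin n) K) e.1 e.2) f = 0) :
    PhaseProper Γ := by
  refine phaseProper_of_residual (fun _ g hg => exists_finiteIndex_of_injective (P := Unit)
    (fun _ => ρ) (fun g h => hinj ((h ()).trans (map_one ρ).symm)) hg) fun H hH => ?_
  refine Fg.phaseQT_fg hK hn (ρ.comp H.subtype) ?_ (dense_restrict ρ H hn hd)
  refine (Set.finite_singleton (1 : H)).subset fun x hx => Subtype.ext (hinj ?_)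
  exact (show ρ x = 1 from hx).trans (map_one ρ).symm

/-- Discrete faithful subgroups of `SL(3)` over a local field that are not virtually solvable. -/
theorem phaseProper_sl3 {k : Type} [NontriviallyNormedField k] [ProperSpace k]
    (ρ : Γ →* SL(3, k)) (hinj : Function.Injective ρ)
    (hfin : ∀ R : ℝ, {g | ∀ i j, ‖(ρ g : Matrix (Fin 3) (Fin 3) k) i j‖ ≤ R}.Finite)
    (hns : ∀ S : Subgroup Γ, S.FiniteIndex → ¬ Group.IsSolvable (S.map ρ)) : PhaseProper Γ := by
  refine phaseProper_of_residual (fun _ g hg => exists_finiteIndex_of_injective (P := Unit)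
    (fun _ => ρ) (fun g h => hinj ((h ()).trans (map_one ρ).symm)) hg) fun H hH => ?_
  refine phaseQT_of_nonuniquePhase (SL.nonuniquePhase_of_discrete (ρ.comp H.subtype) (fun R =>
    ((hfin R).preimage Subtype.val_injective.injOn).subset fun x hx => hx) fun S hS h => ?_)
  refine hns (S.map H.subtype) ?_ ?_
  · have := hS
    exact ⟨by
      rw [Subgroup.index_map_subtype]
      exact mul_ne_zero Subgroup.FiniteIndex.index_ne_zero Subgroup.FiniteIndex.index_ne_zero⟩
  · rwa [Subgroup.map_map]

/-- A finitely generated linear group over algebraic numbers with semisimple closure, faithful. -/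
theorem phaseProper_semisimple {K : Type} [Field K] [CharZero K] [IsAlgClosed K]
    (halg : ∀ x : K, IsAlgebraic ℤ x) {n : ℕ} [Group.FG Γ]
    (rep : Γ →* Matrix (Fin n) (Fin n) K) (hinj : Function.Injective rep)
    (h : Red.SemisimpleClosure rep) : PhaseProper Γ := by
  refine phaseProper_of_residual (fun _ g hg => exists_finiteIndex_notMem rep fun e =>
    hg (hinj (e.trans (map_one rep).symm))) fun H hH => ?_
  exact Red.phaseQT_semisimple_finiteIndex halg rep
    ((Set.finite_singleton (1 : Γ)).subset fun x hx => hinj (hx.trans (map_one rep).symm)) h H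

end Vale.Agent.P165.EX.Stab
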